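import Vale.Agent.P352X.Api1B

/-!
# P352X, row A2: polarization, and an elementary function
-/

set_option linter.all false

noncomputable section

open Filter Topology Complex

namespace Vale.Agent.P352X.A2

variable {H : Type*} [NormedAddCommGroup H] [InnerProductSpace ℂ H] [CompleteSpace H]

lemma re_symm {S : ℝ → H →L[ℂ] H} (g : UG S) {x a y b : H} (h : Gn S x a) (h' : Gn S y b) :
    (inner ℂ y a).re = (inner ℂ x b).re := by
  rw [g.symm h h', ← inner_conj_symm, conj_re]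

theorem key {S U B : ℝ → H →L[ℂ] H} (gS : UG S) (gU : UG U)
    (hM : ∀ᶠ u in 𝓝[>] (0 : ℝ), ∀ x k b p k', Gn S x k → Gn B x b → Gn U x p →
      Gn S (U (-u) x) k' → |(inner ℂ (U (-u) x) k').re - (inner ℂ x k).re| ≤
        u * ((inner ℂ x p).re + 4 * (inner ℂ x k).re))
    {x kx bx px φ ξ bφ pφ : H} {L : ℝ} (x1 : Gn S x kx) (x2 : Gn B x bx) (x3 : Gn U x px)
    (x4 : ∀ᶠ u in 𝓝[>] (0 : ℝ), Dm S (U (-u) x)) (h1 : Gn S φ ξ) (h2 : Gn B φ bφ) (h3 : Gn U φ pφ)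
    (h4 : ∀ᶠ u in 𝓝[>] (0 : ℝ), Dm S (U (-u) φ) ∧ ‖gen S (U (-u) φ) - ξ‖ ≤ u * L) :
    (inner ℂ px (I • ξ)).re ≤ ((inner ℂ x px).re + 4 * (inner ℂ x kx).re) / 8 +
      2 * ((inner ℂ φ pφ).re + 4 * (inner ℂ φ ξ).re) + ‖x‖ * L := by
  have d : HasDerivAt (fun u : ℝ => U (-u) x) (-I • px) 0 := by
    simpa [gU.zero] using gU.hasDerivAt_comp (hasDerivAt_neg (0 : ℝ)) (hasDerivAt_const 0 x) x3
  have t := (continuous_re.tendsto _).comp
    (d.tendsto_slope_zero_right.inner (𝕜 := ℂ) (tendsto_const_nhds (x := ξ)))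
  rw [inner_smul_left, map_neg, conj_I, neg_neg, ← inner_smul_right] at t
  refine le_of_tendsto t ?_
  filter_upwards [hM, x4, h4, self_mem_nhdsWithin] with u m a4 b4 hu
  have hu' : 0 < u := hu
  have a1 := (abs_le.1 (m _ _ _ _ _ (x1.add (h1.rsmul 4)) (x2.add (h2.rsmul 4))
    (x3.add (h3.rsmul 4)) (by
      rw [map_add, ContinuousLinearMap.map_smul_of_tower]
      exact a4.gn.add (b4.1.gn.rsmul 4)))).2
  have a2 := (abs_le.1 (m _ _ _ _ _ (x1.sub (h1.rsmul 4)) (x2.sub (h2.rsmul 4))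
    (x3.sub (h3.rsmul 4)) (by
      rw [map_sub, ContinuousLinearMap.map_smul_of_tower]
      exact a4.gn.sub (b4.1.gn.rsmul 4)))).1
  have s1 := re_symm gS x1 h1
  have s2 := re_symm gS a4.gn b4.1.gn
  have s3 : -(‖x‖ * (u * L)) ≤ (inner ℂ (U (-u) x) (gen S (U (-u) φ) - ξ)).re :=
    neg_le_of_abs_le ((abs_re_le_norm _).trans ((norm_inner_le_norm _ _).trans (by
      rw [gU.nrm]
      exact mul_le_mul_of_nonneg_left b4.2 (norm_nonneg _))))
  simp only [map_add, map_sub, map_smul, ← Complex.coe_smul, inner_add_left, inner_add_right,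
    inner_sub_left, inner_sub_right, inner_smul_left, inner_smul_right, conj_ofReal, add_re, sub_re,
    re_ofReal_mul, Function.comp_apply, zero_add, neg_zero, gU.zero] at a1 a2 s3 ⊢
  rw [inv_mul_le_iff₀ hu']
  linarith

/-- `∫ exp (-s (1 + i x))` over `(0, a)` -/
def Gf (a x : ℝ) : ℂ := (1 - cexp (-(1 + I * x) * a)) / (1 + I * x)

lemma nsq (x : ℝ) : ‖1 + I * x‖ ^ 2 = 1 + x ^ 2 := by
  rw [Complex.sq_norm, normSq_apply]
  simp [sq]

lemma one_le (x : ℝ) : 1 ≤ ‖1 + I * x‖ := by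
  simpa using abs_re_le_norm (1 + I * x)

lemma abs_le' (x : ℝ) : |x| ≤ ‖1 + I * x‖ := by
  simpa using abs_im_le_norm (1 + I * x)

lemma norm_ex (a x : ℝ) : ‖cexp (-(1 + I * x) * a)‖ = Real.exp (-a) := by
  rw [norm_exp]
  simp

lemma Gf_int (a x : ℝ) : ∫ s in (0 : ℝ)..a, cexp (-(1 + I * x) * s) = Gf a x := by
  have h : 1 + I * x ≠ 0 := norm_pos_iff.1 (one_pos.trans_le (one_le x))
  rw [integral_exp_mul_complex (neg_ne_zero.2 h), Gf, div_neg, ← neg_div]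
  simp

lemma Gf_meas (a : ℝ) : Measurable (Gf a) := by
  unfold Gf
  fun_prop

variable {a : ℝ} (ha : 0 ≤ a)
include ha

lemma num_le (x : ℝ) : ‖1 - cexp (-(1 + I * x) * a)‖ ≤ 2 := by
  have := norm_sub_le 1 (cexp (-(1 + I * x) * a))
  rw [norm_ex, norm_one] at this
  linarith [Real.exp_le_one_iff.2 (neg_nonpos.2 ha)]

lemma Gf_mul (x : ℝ) : ‖Gf a x‖ * ‖1 + I * x‖ ≤ 2 := by
  rw [Gf, norm_div, div_mul_cancel₀ _ (one_pos.trans_le (one_le x)).ne']
  exact num_le ha x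

lemma Gf_le (x : ℝ) : ‖Gf a x‖ ≤ 2 :=
  (le_mul_of_one_le_right (norm_nonneg _) (one_le x)).trans (Gf_mul ha x)

lemma Gf_x (x : ℝ) : |x| * ‖Gf a x‖ ≤ 2 := by
  rw [mul_comm]
  exact (mul_le_mul_of_nonneg_left (abs_le' x) (norm_nonneg _)).trans (Gf_mul ha x)

lemma Gf_sq (x : ℝ) : ‖Gf a x‖ ^ 2 ≤ 4 * (1 + x ^ 2)⁻¹ := by
  rw [← div_eq_mul_inv, le_div_iff₀ (by positivity), ← nsq, ← mul_pow]
  exact (pow_le_pow_left₀ (by positivity) (Gf_mul ha x) 2).trans_eq (by norm_num)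

lemma aexp : a * Real.exp (-a) ≤ 1 := by
  rw [Real.exp_neg, mul_inv_le_iff₀ (Real.exp_pos a)]
  linarith [Real.add_one_le_exp a]

lemma Gf_re {x : ℝ} (hx : 0 ≤ x) : a * x * (1 + x ^ 2)⁻¹ - 1 ≤ a * x * (Gf a x).re := by
  have h0 := one_pos.trans_le (one_le x)
  have h1 : (1 / (1 + I * x)).re = (1 + x ^ 2)⁻¹ := by
    rw [one_div, inv_re, normSq_eq_norm_sq, nsq]
    simp
  have h2 := re_le_norm (cexp (-(1 + I * x) * a) / (1 + I * x))
  rw [norm_div, norm_ex] at h2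
  have h3 : x * (Real.exp (-a) / ‖1 + I * x‖) ≤ Real.exp (-a) := by
    rw [← mul_div_assoc, div_le_iff₀ h0, mul_comm]
    exact mul_le_mul_of_nonneg_left ((le_abs_self x).trans (abs_le' x)) (Real.exp_pos _).le
  rw [Gf, sub_div, sub_re, h1]
  nlinarith [mul_le_mul_of_nonneg_left h2 (mul_nonneg ha hx), mul_le_mul_of_nonneg_left h3 ha,
    aexp ha]

lemma Gf_lip (ρ x : ℝ) : ‖Gf a (ρ * x) - Gf a x‖ ≤ 3 * |ρ - 1| := by
  have h0 := one_pos.trans_le (one_le x)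
  have h1 := one_pos.trans_le (one_le (ρ * x))
  have e : Gf a (ρ * x) - Gf a x = (Gf a (ρ * x) * (I * ((1 - ρ) * x : ℝ)) + Real.exp (-a) *
      (cexp (I * (-a * x : ℝ)) - cexp (I * (-a * ρ * x : ℝ)))) / (1 + I * x) := by
    have e1 : ∀ y : ℝ, cexp (-(1 + I * y) * a) = Real.exp (-a) * cexp (I * (-a * y : ℝ)) :=
      fun y => by
        rw [ofReal_exp, ← Complex.exp_add]
        congr 1
        push_cast
        ring
    have := norm_pos_iff.1 h0
    have := norm_pos_iff.1 h1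
    rw [Gf, Gf, e1, e1, mul_assoc (-a)]
    field_simp
    push_cast
    ring
  have h2 := SN.Calc.norm_expI_sub x (-a * ρ) (-a)
  rw [show -a - -a * ρ = a * (ρ - 1) by ring, abs_mul, abs_of_nonneg ha] at h2
  rw [e, norm_div, div_le_iff₀ h0]
  refine (norm_add_le _ _).trans ?_
  rw [norm_mul, norm_mul, norm_mul, norm_I, one_mul, norm_real, norm_real, Real.norm_eq_abs, abs_mul,
    abs_sub_comm, Real.norm_of_nonneg (Real.exp_pos _).le]
  have h3 := mul_le_mul_of_nonneg_left (abs_le' x) (abs_nonneg (ρ - 1))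
  have h4 := mul_nonneg (abs_nonneg (ρ - 1)) (abs_nonneg x)
  nlinarith [mul_le_mul_of_nonneg_right (Gf_le ha (ρ * x)) h4, mul_le_mul_of_nonneg_right (aexp ha) h4,
    mul_le_mul_of_nonneg_left h2 (Real.exp_pos (-a)).le]

end Vale.Agent.P352X.A2
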