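import Vale.Agent.P352X.ST.Syn
import Vale.Agent.P352X.R.LIE
import Vale.Agent.P352X.R.Br

/-!
# P352X, row A2: telescoping decomposition of Schwartz functions
-/

set_option linter.all false

noncomputable section

open Filter Topology Metric
open scoped SchwartzMap ContDiff

namespace Vale.Agent.P352X.A2

variable {E : Type*} [NormedAddCommGroup E] [NormedSpace ℝ E]

theorem sn_eq (m : ℕ) (f : 𝓢(E, ℂ)) : sn m f = ST.sn E ℂ m f :=
  le_antisymm (Lie.sn_le (apply_nonneg _ _) fun k hk n hn x =>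
    (f.le_seminorm ℝ k n x).trans (ST.seminorm_le_sn hk hn f))
    (ST.sn_le (Lie.sn_nonneg m f) fun k hk n hn => Lie.le_sn hk hn f)

/-- **Telescoping**: `f = ∑ g j f`, where `g j f` lives in the ball of radius `2 (j + 1)` and decays
rapidly in `j`. -/
theorem tel [FiniteDimensional ℝ E] : ∃ g : ℕ → 𝓢(E, ℂ) →L[ℂ] 𝓢(E, ℂ),
    (∀ j f, tsupport (g j f) ⊆ tsupport f ∩ closedBall 0 (2 * (j + 1))) ∧
    (∀ m M : ℕ, ∃ (m' : ℕ) (C : ℝ), 0 ≤ C ∧ ∀ j f,
      sn m (g j f) ≤ C / ((j : ℝ) + 1) ^ M * sn m' f) ∧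
    ∀ f, Tendsto (fun n => ∑ j ∈ Finset.range n, g j f) atTop (𝓝 f) := by
  haveI := FiniteDimensional.proper ℝ E
  let b : ContDiffBump (0 : E) := ⟨1, 2, one_pos, one_lt_two⟩
  have hb : ContDiff ℝ ∞ b := b.contDiff
  set L : ℕ → E →L[ℝ] E := fun n => (n : ℝ)⁻¹ • ContinuousLinearMap.id ℝ E with hL
  have hLz : ∀ n z, ‖L n z‖ = (n : ℝ)⁻¹ * ‖z‖ := fun n z => by simp [hL, norm_smul]
  have hLn : ∀ n, ‖L n‖ ≤ 1 := fun n => ContinuousLinearMap.opNorm_le_bound _ zero_le_one fun z =>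
    (hLz n z).trans_le (mul_le_mul_of_nonneg_right (Nat.cast_inv_le_one n) (norm_nonneg _))
  let χ : ℕ → E → ℂ := fun n z => if n = 0 then 0 else b (L n z)
  have hχ : ∀ N, ∃ (k : ℕ) (C : ℝ), 0 ≤ C ∧ ∀ n, ST.Bd (fun z => C * (1 + ‖z‖) ^ k) N (χ n) :=
    fun N => by
    obtain ⟨k, C, hC, hbd⟩ := ST.bd_of_temperate (b.hasCompactSupport.hasTemperateGrowth hb) N
    refine ⟨k, C, hC, fun n => ?_⟩
    by_cases h : n = 0
    · exact ((ST.Bd.const (0 : ℂ) N).mono fun z => by rw [norm_zero]; positivity).congr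
        fun z => if_pos h
    · refine ((((hbd.comp (L n) le_rfl (hLn n)).ofReal).mono fun z => ?_)).congr fun z => if_neg h
      rw [one_pow, one_mul]
      gcongr
      exact ((L n).le_opNorm z).trans (mul_le_of_le_one_left (norm_nonneg _) (hLn n))
  have h1 : ∀ (n : ℕ) z, ‖z‖ < n → χ n z = 1 := fun n z h => by
    have h0 : (0 : ℝ) < n := (norm_nonneg _).trans_lt h
    refine (if_neg (by exact_mod_cast h0.ne')).trans ?_
    rw [b.one_of_mem_closedBall (by
      rw [mem_closedBall_zero_iff, hLz, inv_mul_le_iff₀ h0, mul_one]; exact h.le), Complex.ofReal_one]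
  have h0 : ∀ (n : ℕ) z, 2 * (n : ℝ) < ‖z‖ → χ n z = 0 := fun n z h => by
    by_cases c : n = 0
    · exact if_pos c
    · have h0 : (0 : ℝ) < n := by exact_mod_cast Nat.pos_of_ne_zero c
      refine (if_neg c).trans ?_
      rw [b.zero_of_le_dist (by
        rw [dist_zero_right, hLz, le_inv_mul_iff₀ h0, mul_comm]; exact h.le), Complex.ofReal_zero]
  have ht : ∀ n, (χ n).HasTemperateGrowth := fun n => ST.temperate_of_bd fun N =>
    let ⟨k, C, _, h⟩ := hχ N
    ⟨k, C, h n⟩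
  let u : ℕ → 𝓢(E, ℂ) →L[ℂ] 𝓢(E, ℂ) := fun n => SchwartzMap.smulLeftCLM ℂ (χ n)
  have hu : ∀ n f z, u n f z = χ n z * f z := fun n f z =>
    SchwartzMap.smulLeftCLM_apply_apply (ht n) f z
  have hg : ∀ j f z, (u (j + 1) - u j) f z = (χ (j + 1) z - χ j z) * f z := fun j f z => by
    rw [sub_mul, ← hu, ← hu]
    rfl
  refine ⟨fun j => u (j + 1) - u j, fun j f => closure_minimal (fun z hz => ?_)
    (isClosed_closure.inter isClosed_closedBall), fun m M => ?_, fun f => ?_⟩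
  · rw [Function.mem_support, hg] at hz
    refine ⟨subset_closure (right_ne_zero_of_mul hz), mem_closedBall_zero_iff.2 (not_lt.1 fun c =>
      left_ne_zero_of_mul hz ?_)⟩
    rw [h0 (j + 1) z (by exact_mod_cast c), h0 j z (by linarith), sub_zero]
  · obtain ⟨k, C, hC, h⟩ := hχ m
    refine ⟨m + (k + M), 2 ^ m * 2 ^ (m + (k + M)) * (2 * C), by positivity, fun j f => ?_⟩
    rw [sn_eq, sn_eq]
    refine (ST.sn_mul (A := 2 * C / ((j : ℝ) + 1) ^ M) (l := k + M) ⟨((h (j + 1)).sub (h j)).1,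
      fun i hi z => ?_⟩ f _ (hg j f)).trans_eq (by ring)
    by_cases c : ‖z‖ < j
    · have e : (fun z => χ (j + 1) z - χ j z) =ᶠ[𝓝 z] fun _ => 0 := by
        filter_upwards [(isOpen_lt continuous_norm continuous_const).mem_nhds c] with y hy
        rw [h1 j y hy, h1 (j + 1) y (hy.trans (by simp)), sub_self]
      rw [(e.iteratedFDeriv ℝ i).eq_of_nhds, iteratedFDeriv_fun_zero, Pi.zero_apply, norm_zero]
      positivity
    · refine (((h (j + 1)).sub (h j)).2 i hi z).trans ?_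
      have : ((j : ℝ) + 1) ^ M ≤ (1 + ‖z‖) ^ M :=
        pow_le_pow_left₀ (by positivity) (by linarith [not_lt.1 c]) M
      beta_reduce
      rw [div_mul_eq_mul_div, le_div_iff₀ (by positivity), pow_add, ← mul_assoc, two_mul, add_mul C]
      gcongr
  · have e : ∀ n, ∑ j ∈ Finset.range n, (u (j + 1) - u j) f = u n f := fun n => by
      rw [← ContinuousLinearMap.sum_apply, Finset.sum_range_sub]
      ext z
      change u n f z - u 0 f z = _
      rw [hu 0, show χ 0 z = 0 from rfl, zero_mul, sub_zero]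
    simp only [e]
    refine ST.tendsto_of_sn (fun N => ?_) fun z => ?_
    · obtain ⟨k, C, hC, h⟩ := hχ N
      exact ⟨_, Eventually.of_forall fun n => ST.sn_mul (h n) f _ (hu n f)⟩
    · refine tendsto_const_nhds.congr' ?_
      filter_upwards [tendsto_natCast_atTop_atTop.eventually_gt_atTop ‖z‖] with n hn
      rw [hu, h1 n z hn, one_mul]

open Vale.Agent.P352 Vale.Agent.P352.GF in
/-- bounded parts of slabs are moved into a cut cone by translations along `a` -/
theorem into_Rc {b1 b2 r R t : ℝ} (hb : b2 < 0) (hr : 0 ≤ r) (h1 : 1 / 2 ≤ 1 + 2 * r * b1)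
    (ht : 2 * R + 4 * r * R ^ 2 < t) {z : V} (hz : b1 ≤ be z ∧ be z ≤ b2) (hn : ‖z‖ ≤ R) :
    z + t • va ∈ Rc r 0 := by
  have e : z + t • va - 0 = pt (al z + t) (be z) (tx z) := by
    conv_lhs => rw [sub_zero, ← Br.pt_self z]
    rw [Br.pt_eq, Br.pt_eq, add_smul]
    abel
  have hc : ∀ i, |z i| ≤ R := fun i => (norm_le_pi_norm z i).trans hn
  have h2 : -R ≤ al z := by
    have := abs_le.1 (hc 0)
    have := abs_le.1 (hc 1)
    simp only [al, GF.mdot, vb, eta, o, Fin.sum_univ_four]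
    simp
    linarith
  have h3 : d2 (tx z) (tx z) ≤ 2 * R ^ 2 := by
    have := abs_le.1 (hc 2)
    have := abs_le.1 (hc 3)
    simp only [d2, tx]
    simp
    nlinarith
  have h4 : 1 / 2 ≤ 1 + 2 * r * be z := by nlinarith [hz.1]
  have hR : 0 ≤ R := (norm_nonneg _).trans hn
  have h5 : 2 * r * d2 (tx z) (tx z) ≤ 4 * r * R ^ 2 := by nlinarith
  change z + t • va - 0 ∈ HM.Rg va vb r
  rw [e]
  refine ⟨(Br.be_pt' ..).trans_lt (hz.2.trans_lt hb), ?_, ?_⟩
  · change 0 < 1 + 2 * r * be _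
    rw [Br.be_pt']
    linarith
  · change 0 < al _ + r * mu _
    rw [Br.mu_eq', Br.be_pt', Br.al_pt', Br.tx_pt']
    have h6 : 0 < al z + t := by nlinarith [mul_nonneg hr (sq_nonneg R)]
    nlinarith [mul_le_mul_of_nonneg_left h4 h6.le]

end Vale.Agent.P352X.A2
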